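import Vale.Agent.P327.Homeo.Compute

/-! Homeomorphisms of Cantor space induce only the identity on the Turing degrees. -/

namespace Vale.Agent.P327.Homeo

open Nat.Partrec

theorem computable_trunc (x : ℕ → Bool) (M : ℕ) : Computable fun i => decide (i < M) && x i := by
  induction M with
  | zero => exact (Computable.const false).of_eq fun i => by simp
  | succ M ih =>
    refine (Computable.cond (PrimrecPred.decide (Primrec.eq.comp Primrec.id
      (Primrec.const M))).to_comp (Computable.const (x M)) ih).of_eq fun i => ?_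
    by_cases hi : i = M
    · simp [hi]
    · have : i < M + 1 ↔ i < M := by omega
      simp [hi, this]

theorem xadd_reducible {x c : ℕ → Bool} (hc : Computable c) :
    TuringReducible (orc (xadd x c)) (orc x) := by
  refine reducible_of_prefix (fun n => n + 1) (fun p => xor (p.1.getI p.2) (c p.2))
    Computable.succ ((Primrec.dom_bool₂ xor).to_comp.comp
      (primrec_getI_bool.to_comp.comp Computable.fst Computable.snd) (hc.comp Computable.snd))
    fun n => ?_
  rw [pre_getI (Nat.lt_succ_self n)]
  rfl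

theorem xadd_jn_reducible (a b : ℕ → Bool) : TuringReducible (orc (xadd a b)) (orc (jn a b)) := by
  refine reducible_of_prefix (fun n => 2 * n + 2)
    (fun p => xor (p.1.getI (2 * p.2)) (p.1.getI (2 * p.2 + 1)))
    (Primrec.succ.comp (Primrec.succ.comp (Primrec.nat_mul.comp (Primrec.const 2) Primrec.id))).to_comp
    ((Primrec.dom_bool₂ xor).comp
      (primrec_getI_bool.comp Primrec.fst (Primrec.nat_mul.comp (Primrec.const 2) Primrec.snd))
      (primrec_getI_bool.comp Primrec.fst
        (Primrec.succ.comp (Primrec.nat_mul.comp (Primrec.const 2) Primrec.snd)))).to_comp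
    fun n => ?_
  rw [pre_getI (by omega), pre_getI (by omega)]
  simp [xadd, jn, show (2 * n + 1) % 2 = 1 by omega, show (2 * n + 1) / 2 = n by omega]

variable (h : (ℕ → Bool) ≃ₜ (ℕ → Bool))
variable (hord : ∀ x y, TuringReducible (orc x) (orc y) ↔ TuringReducible (orc (h x)) (orc (h y)))

/-- The tail swap number `k` of the alternating word. -/
noncomputable def tp (m k : ℕ) : (ℕ → Bool) ≃ₜ (ℕ → Bool) :=
  if k % 2 = 0 then trH h ra_invol m else trH h rb_invol m

/-- The first `j` tail swaps of the word of length `n`. -/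
noncomputable def word (m n j : ℕ) : (ℕ → Bool) ≃ₜ (ℕ → Bool) :=
  Nat.rec (Homeomorph.refl _) (fun j w => w.trans (tp h m (n - 1 - j))) j

theorem tp_apply (m k : ℕ) (y : ℕ → Bool) (hm : m % 2 = 0) :
    h (tp h m k y) (m + k) = h y (m + (k + 1)) := by
  rcases Nat.mod_two_eq_zero_or_one k with hk | hk
  · rw [tp, if_pos hk]
    show h (tr h ra m y) (m + k) = _
    rw [tr, Homeomorph.apply_symm_apply, swap,
      show ra (m + k) = m + (k + 1) by unfold ra; rw [if_pos (by omega)]; omega]
    simp [tail]
  · rw [tp, if_neg (by omega)]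
    show h (tr h rb m y) (m + k) = _
    rw [tr, Homeomorph.apply_symm_apply, swap,
      show rb (m + k) = m + (k + 1) by
        unfold rb; rw [if_neg (by omega), if_pos (by omega)]; omega]
    simp [tail]

theorem word_apply (m n : ℕ) (x : ℕ → Bool) (hm : m % 2 = 0) :
    ∀ j ≤ n, h (word h m n j x) (m + (n - j)) = h x (m + n) := by
  intro j hj
  induction j with
  | zero => rfl
  | succ j ih =>
    show h (tp h m (n - 1 - j) (word h m n j x)) (m + (n - (j + 1))) = _
    rw [show n - (j + 1) = n - 1 - j by omega, tp_apply h m _ _ hm,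
      show n - 1 - j + 1 = n - j by omega, ih (by omega)]

variable {A B : Set (ℕ → Bool)} (Ga : Gadget h ra A) (Gb : Gadget h rb B)

/-- The open dense conditions on a point and two parameters. -/
def Good (m : ℕ) (x va vb : ℕ → Bool) : Prop :=
  ∀ n j k, (word h m n j x, va) ∈ Ga.good ra_invol m k ∧ (word h m n j x, vb) ∈ Gb.good rb_invol m k

include hord in
theorem compute (hsub : h ⁻¹' cyl Gb.wa ⊆ h ⁻¹' cyl Ga.wa) {m : ℕ} (hm : m % 2 = 0)
    (hma : Ga.wb.length ≤ m) (hmb : Gb.wb.length ≤ m) (hmw : Gb.wa.length ≤ m)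
    {x va vb : ℕ → Bool} (hx : x ∈ h ⁻¹' cyl Gb.wa) (hva : va ∈ h ⁻¹' cyl Ga.wb)
    (hvb : vb ∈ h ⁻¹' cyl Gb.wb) (hgood : Good h Ga Gb m x va vb) :
    TuringReducible (orc (h x)) (orc (jn x (jn va vb))) := by
  set ua := flipv h m va
  set ub := flipv h m vb
  set z := jn (jn x (jn va ua)) (jn vb ub) with hz
  have hzle : TuringReducible (orc z) (orc (jn x (jn va vb))) := by
    have h1 := (jn_left va vb).trans (jn_right x (jn va vb))
    have h2 := (jn_right va vb).trans (jn_right x (jn va vb))
    exact jn_le (jn_le (jn_left _ _) (jn_le h1 ((flipv_reducible h hord m va).trans h1)))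
      (jn_le h2 ((flipv_reducible h hord m vb).trans h2))
  refine TuringReducible.trans ?_ hzle
  obtain ⟨L₀, hL₀⟩ : ∃ L, ∀ i ≤ m, ∀ y y' : ℕ → Bool, (∀ l < L, y l = y' l) → h y i = h y' i := by
    choose L hL using fun i => exists_uniform ((continuous_apply i).comp h.continuous)
    exact ⟨(Finset.range (m + 1)).sup L, fun i hi y y' hy => hL i y y' fun l hl =>
      hy l (hl.trans_le (Finset.le_sup (f := L) (Finset.mem_range.2 (Nat.lt_succ_of_le hi))))⟩
  let e : List Bool → ℕ → Bool := fun q => h fun l => q.getI l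
  have htab : ∀ k, Primrec fun p : List Bool × ℕ =>
      decide (p.2 < k) && (decide (p.1.length = L₀) && e p.1 p.2) := by
    intro k
    induction k with
    | zero => exact (Primrec.const false).of_eq fun p => by simp
    | succ k ih =>
      refine (Primrec.cond (PrimrecPred.decide (Primrec.eq.comp Primrec.snd (Primrec.const k)))
        ((finite_table L₀ fun q => e q k).comp Primrec.fst) ih).of_eq fun p => ?_
      by_cases hp : p.2 = k
      · simp [hp]
      · have : p.2 < k + 1 ↔ p.2 < k := by omega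
        simp [hp, this]
  let F : List Bool × ℕ → Bool :=
    fun p => decide (p.2 < m + 1) && (decide (p.1.length = L₀) && e p.1 p.2)
  have hF : ∀ (q : List Bool) (y : ℕ → Bool) (i : ℕ), i ≤ m → Pref q y → L₀ ≤ q.length →
      F (q.take L₀, i) = h y i := by
    intro q y i hi hq hl
    have hl' : (q.take L₀).length = L₀ := by simp; omega
    simp only [F, e, hl', show i < m + 1 by omega, decide_true, Bool.true_and]
    refine hL₀ i hi _ _ fun l hlt => ?_
    rw [List.getI_eq_getElem _ (by omega), List.getElem_take, ← List.getI_eq_getElem _ (by omega)]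
    exact hq.getI (by omega)
  let q₀ : List Bool → List Bool := fun P => evL (evL P)
  let stA : List Bool → List Bool → List Bool := fun P q =>
    stepF Ga.first.code Ga.second.code
      (((q, evL (odL (evL P))), odL (odL (evL P))), P.length)
  let stB : List Bool → List Bool → List Bool := fun P q =>
    stepF Gb.first.code Gb.second.code (((q, evL (odL P)), odL (odL P)), P.length)
  let it : List Bool → ℕ → ℕ → List Bool := fun P n j =>
    Nat.rec (q₀ P) (fun j q => if (n - 1 - j) % 2 = 0 then stA P q else stB P q) j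
  have hitc : Primrec fun p : List Bool × ℕ => it p.1 p.2 p.2 := by
    have hP : Primrec fun a : (List Bool × ℕ) × ℕ × List Bool => a.1.1 :=
      Primrec.fst.comp Primrec.fst
    have hq : Primrec fun a : (List Bool × ℕ) × ℕ × List Bool => a.2.2 :=
      Primrec.snd.comp Primrec.snd
    refine Primrec.nat_rec' (h := fun (p : List Bool × ℕ) (a : ℕ × List Bool) =>
      if (p.2 - 1 - a.1) % 2 = 0 then stA p.1 a.2 else stB p.1 a.2)
      Primrec.snd (primrec_evL.comp (primrec_evL.comp Primrec.fst)) ?_
    exact (Primrec.ite (Primrec.eq.comp (Primrec.nat_mod.comp (Primrec.nat_sub.comp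
        (Primrec.nat_sub.comp (Primrec.snd.comp Primrec.fst) (Primrec.const 1))
        (Primrec.fst.comp Primrec.snd)) (Primrec.const 2)) (Primrec.const 0))
      ((primrec_stepF _ _).comp (((hq.pair (primrec_evL.comp (primrec_odL.comp (primrec_evL.comp hP)))).pair
        (primrec_odL.comp (primrec_odL.comp (primrec_evL.comp hP)))).pair (Primrec.list_length.comp hP)))
      ((primrec_stepF _ _).comp (((hq.pair (primrec_evL.comp (primrec_odL.comp hP))).pair
        (primrec_odL.comp (primrec_odL.comp hP))).pair (Primrec.list_length.comp hP)))).to₂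
  -- the components of the oracle
  have hparts : ∀ K, (Pref (q₀ (pre z K)) x ∧ (q₀ (pre z K)).length = K / 2 / 2) ∧
      (Pref (evL (odL (evL (pre z K)))) va ∧ (evL (odL (evL (pre z K)))).length = K / 2 / 2 / 2) ∧
      (Pref (odL (odL (evL (pre z K)))) ua ∧ (odL (odL (evL (pre z K)))).length = K / 2 / 2 / 2) ∧
      (Pref (evL (odL (pre z K))) vb ∧ (evL (odL (pre z K))).length = K / 2 / 2) ∧
      (Pref (odL (odL (pre z K))) ub ∧ (odL (odL (pre z K))).length = K / 2 / 2) := by
    intro K
    have h0 := pref_pre z K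
    have hl : (pre z K).length = K := pre_length z K
    have hE := evL_pref h0
    have hO := odL_pref h0
    rw [hz, evn_jn, ← hz] at hE
    rw [hz, odd_jn, ← hz] at hO
    have hEE := evL_pref hE.1
    have hEO := odL_pref hE.1
    have hOE := evL_pref hO.1
    have hOO := odL_pref hO.1
    rw [evn_jn] at hEE hOE
    rw [odd_jn] at hEO hOO
    have hEOE := evL_pref hEO.1
    have hEOO := odL_pref hEO.1
    rw [evn_jn] at hEOE
    rw [odd_jn] at hEOO
    refine ⟨⟨hEE.1, ?_⟩, ⟨hEOE.1, ?_⟩, ⟨hEOO.1, ?_⟩, ⟨hOE.1, ?_⟩, ⟨hOO.1, ?_⟩⟩ <;>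
      simp only [q₀, hEE.2, hEOE.2, hEOO.2, hOE.2, hOO.2, hEO.2, hE.2, hO.2, hl]
  have hinv : ∀ n j, word h m n j x ∈ h ⁻¹' cyl Gb.wa := by
    intro n j
    induction j with
    | zero => exact hx
    | succ j ih =>
      show tp h m (n - 1 - j) (word h m n j x) ∈ _
      unfold tp
      split_ifs
      · exact tr_mem h hmw ih
      · exact tr_mem h hmw ih
  have hsound : ∀ n K j, Pref (it (pre z K) n j) (word h m n j x) := by
    intro n K j
    induction j with
    | zero => exact (hparts K).1.1
    | succ j ih =>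
      show Pref (if (n - 1 - j) % 2 = 0 then stA _ _ else stB _ _)
        (tp h m (n - 1 - j) (word h m n j x))
      unfold tp
      split_ifs
      · exact (Ga.step ra_invol hma (hsub (hinv n j)) hva).1 _ ih (hparts K).2.1.1 (hparts K).2.2.1.1
      · exact (Gb.step rb_invol hmb (hinv n j) hvb).1 _ ih (hparts K).2.2.2.1.1 (hparts K).2.2.2.2.1
  have htot : ∀ n j L, ∃ M, ∀ K, M ≤ K → L ≤ (it (pre z K) n j).length := by
    intro n j
    induction j with
    | zero =>
      intro L
      exact ⟨4 * L, fun K hK => by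
        show L ≤ (q₀ (pre z K)).length
        rw [(hparts K).1.2]; omega⟩
    | succ j ih =>
      intro L
      by_cases hpar : (n - 1 - j) % 2 = 0
      · obtain ⟨M, hM⟩ := (Ga.step ra_invol hma (hsub (hinv n j)) hva).2
          (fun k => (hgood n j k).1) L
        obtain ⟨M', hM'⟩ := ih M
        refine ⟨max M' (8 * M), fun K hK => ?_⟩
        show L ≤ (if (n - 1 - j) % 2 = 0 then stA _ _ else stB _ _).length
        rw [if_pos hpar]
        have hp := hparts K
        exact hM _ _ _ _ (hsound n K j) hp.2.1.1 hp.2.2.1.1 (hM' K (by omega))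
          (by rw [hp.2.1.2]; omega) (by rw [hp.2.2.1.2]; omega) (by rw [pre_length]; omega)
      · obtain ⟨M, hM⟩ := (Gb.step rb_invol hmb (hinv n j) hvb).2
          (fun k => (hgood n j k).2) L
        obtain ⟨M', hM'⟩ := ih M
        refine ⟨max M' (8 * M), fun K hK => ?_⟩
        show L ≤ (if (n - 1 - j) % 2 = 0 then stA _ _ else stB _ _).length
        rw [if_neg hpar]
        have hp := hparts K
        exact hM _ _ _ _ (hsound n K j) hp.2.2.2.1.1 hp.2.2.2.2.1 (hM' K (by omega))
          (by rw [hp.2.2.2.1.2]; omega) (by rw [hp.2.2.2.2.2]; omega) (by rw [pre_length]; omega)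
  let g : List Bool × ℕ → Option Bool := fun p =>
    if p.2 < m then
      (if L₀ ≤ (q₀ p.1).length then some (F ((q₀ p.1).take L₀, p.2)) else none)
    else
      (if L₀ ≤ (it p.1 (p.2 - m) (p.2 - m)).length then
        some (F ((it p.1 (p.2 - m) (p.2 - m)).take L₀, m)) else none)
  have hg : Computable g := by
    have hq : Primrec fun p : List Bool × ℕ => q₀ p.1 :=
      primrec_evL.comp (primrec_evL.comp Primrec.fst)
    have hi : Primrec fun p : List Bool × ℕ => it p.1 (p.2 - m) (p.2 - m) :=
      hitc.comp (Primrec.fst.pair (Primrec.nat_sub.comp Primrec.snd (Primrec.const m)))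
    exact (Primrec.ite (Primrec.nat_lt.comp Primrec.snd (Primrec.const m))
      (Primrec.ite (Primrec.nat_le.comp (Primrec.const L₀) (Primrec.list_length.comp hq))
        (Primrec.option_some.comp ((htab (m + 1)).comp
          ((Primrec.list_take.comp (Primrec.const L₀) hq).pair Primrec.snd))) (Primrec.const none))
      (Primrec.ite (Primrec.nat_le.comp (Primrec.const L₀) (Primrec.list_length.comp hi))
        (Primrec.option_some.comp ((htab (m + 1)).comp
          ((Primrec.list_take.comp (Primrec.const L₀) hi).pair (Primrec.const m))))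
        (Primrec.const none))).to_comp
  refine reducible_of_search g hg (fun K i b hb => ?_) (fun i => ?_)
  · simp only [g] at hb
    split_ifs at hb with h1 h2 h3
    · rw [← Option.some.inj hb]
      exact hF _ x i h1.le (hparts K).1.1 h2
    · rw [← Option.some.inj hb]
      rw [hF _ _ m le_rfl (hsound _ K _) h3]
      have := word_apply h m (i - m) x hm (i - m) le_rfl
      rw [Nat.sub_self, Nat.add_zero, show m + (i - m) = i by omega] at this
      exact this
  · by_cases h1 : i < m
    · refine ⟨4 * L₀, ?_⟩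
      have h2 : L₀ ≤ (q₀ (pre z (4 * L₀))).length := by rw [(hparts _).1.2]; omega
      simp only [g, h1, h2, if_true, Option.isSome_some]
    · obtain ⟨M, hM⟩ := htot (i - m) (i - m) L₀
      exact ⟨M, by simp only [g, h1, hM M le_rfl, if_true, if_false, Option.isSome_some]⟩

include hord in
theorem reducible_self (x : ℕ → Bool) : TuringReducible (orc (h x)) (orc x) := by
  obtain ⟨Ga⟩ := exists_gadget h hord ra_invol computable_ra isOpen_univ Set.univ_nonempty
  obtain ⟨Gb⟩ := exists_gadget h hord rb_invol computable_rb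
    ((isOpen_cyl Ga.wa).preimage h.continuous) Ga.neA
  set m := 2 * (Ga.wb.length + Gb.wb.length + Gb.wa.length)
  obtain ⟨p, hp⟩ := Gb.neA
  obtain ⟨a₀, ha₀⟩ := Ga.neB
  obtain ⟨b₀, hb₀⟩ := Gb.neB
  obtain ⟨M, hM⟩ := exists_cyl ((isOpen_cyl Gb.wa).preimage h.continuous) hp
  set c : ℕ → Bool := fun i => decide (i < M) && x i with hc
  set x' := xadd x c with hx'
  have hcc : Computable c := computable_trunc x M
  have hx'x : TuringReducible (orc x') (orc x) := xadd_reducible hcc
  have hxx' : TuringReducible (orc x) (orc x') := by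
    have := xadd_reducible (x := x') hcc
    rwa [hx', xadd_xadd] at this
  refine ((hord x x').1 hxx').trans ?_
  let U : Set (ℕ → Bool) := evn ⁻¹' cyl (pre p M) ∩
    ((fun y => evn (odd' y)) ⁻¹' (h ⁻¹' cyl Ga.wb) ∩ (fun y => odd' (odd' y)) ⁻¹' (h ⁻¹' cyl Gb.wb))
  have hUo : IsOpen U :=
    ((isOpen_cyl _).preimage evn_open.1).inter
      ((((isOpen_cyl _).preimage h.continuous).preimage (evn_open.1.comp odd_open.1)).inter
        (((isOpen_cyl _).preimage h.continuous).preimage (odd_open.1.comp odd_open.1)))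
  have hUne : U.Nonempty := ⟨jn p (jn a₀ b₀), by
    refine ⟨?_, ?_, ?_⟩
    · rw [Set.mem_preimage, evn_jn]; exact mem_cyl_pre.2 fun _ _ => rfl
    · show evn (odd' (jn p (jn a₀ b₀))) ∈ h ⁻¹' cyl Ga.wb; rw [odd_jn, evn_jn]; exact ha₀
    · show odd' (odd' (jn p (jn a₀ b₀))) ∈ h ⁻¹' cyl Gb.wb; rw [odd_jn, odd_jn]; exact hb₀⟩
  let sh : (ℕ → Bool) ≃ₜ (ℕ → Bool) :=
    { toFun := fun g => xadd g x'
      invFun := fun g => xadd g x'
      left_inv := fun g => xadd_xadd g x'
      right_inv := fun g => xadd_xadd g x'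
      continuous_toFun := continuous_xadd.comp (continuous_id.prodMk continuous_const)
      continuous_invFun := continuous_xadd.comp (continuous_id.prodMk continuous_const) }
  let φ : ((ℕ → Bool) ≃ₜ (ℕ → Bool)) → ((ℕ → Bool) → ℕ → Bool) → (ℕ → Bool) →
      (ℕ → Bool) × (ℕ → Bool) := fun W sel y => Prod.map W sel (jnH.symm y)
  have hφ : ∀ (W : (ℕ → Bool) ≃ₜ (ℕ → Bool)) (sel : (ℕ → Bool) → ℕ → Bool),
      Continuous sel ∧ IsOpenMap sel → ∀ S : Set ((ℕ → Bool) × (ℕ → Bool)),
        IsOpen S ∧ Dense S → IsOpen (φ W sel ⁻¹' S) ∧ Dense (φ W sel ⁻¹' S) :=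
    fun W sel hsel S hS => ⟨hS.1.preimage ((W.continuous.prodMap hsel.1).comp jnH.symm.continuous),
      hS.2.preimage ((W.isOpenMap.prodMap hsel.2).comp jnH.symm.isOpenMap)⟩
  let D : ℕ → Set (ℕ → Bool) := fun i =>
    let q := Denumerable.ofNat (ℕ × ℕ × ℕ) i
    (φ (word h m q.1 q.2.1) evn ⁻¹' Ga.good ra_invol m q.2.2 ∩
      φ (word h m q.1 q.2.1) odd' ⁻¹' Gb.good rb_invol m q.2.2) ∩
    (φ (sh.trans (word h m q.1 q.2.1)) evn ⁻¹' Ga.good ra_invol m q.2.2 ∩
      φ (sh.trans (word h m q.1 q.2.1)) odd' ⁻¹' Gb.good rb_invol m q.2.2)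
  have hD : ∀ i, IsOpen (D i) ∧ Dense (D i) := by
    intro i
    set q := Denumerable.ofNat (ℕ × ℕ × ℕ) i
    have h1 := hφ (word h m q.1 q.2.1) evn evn_open _ (Ga.good_spec ra_invol m q.2.2)
    have h2 := hφ (word h m q.1 q.2.1) odd' odd_open _ (Gb.good_spec rb_invol m q.2.2)
    have h3 := hφ (sh.trans (word h m q.1 q.2.1)) evn evn_open _ (Ga.good_spec ra_invol m q.2.2)
    have h4 := hφ (sh.trans (word h m q.1 q.2.1)) odd' odd_open _ (Gb.good_spec rb_invol m q.2.2)
    exact ⟨(h1.1.inter h2.1).inter (h3.1.inter h4.1),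
      (h1.2.inter_of_isOpen_left h2.2 h1.1).inter_of_isOpen_left
        (h3.2.inter_of_isOpen_left h4.2 h3.1) (h1.1.inter h2.1)⟩
  refine cone_avoid hUo hUne D (fun i => (hD i).1) (fun i => (hD i).2) fun y ⟨hy1, hy2, hy3⟩ hyD => ?_
  have hgood : Good h Ga Gb m (evn y) (evn (odd' y)) (odd' (odd' y)) ∧
      Good h Ga Gb m (xadd (evn y) x') (evn (odd' y)) (odd' (odd' y)) := by
    constructor <;> intro n j k <;> have := hyD (Encodable.encode (n, j, k)) <;>
      simp only [D, Denumerable.ofNat_encode] at this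
    exacts [⟨this.1.1, this.1.2⟩, ⟨this.2.1, this.2.2⟩]
  set g := evn y
  set va := evn (odd' y)
  set vb := odd' (odd' y)
  have hg : g ∈ h ⁻¹' cyl Gb.wa := hM hy1
  have hg' : xadd g x' ∈ h ⁻¹' cyl Gb.wa := hM (cyl_congr hy1 fun i hi => by
    rw [pre_length] at hi
    simp [hx', hc, xadd, hi]
    rfl)
  have hsub : h ⁻¹' cyl Gb.wa ⊆ h ⁻¹' cyl Ga.wa := Gb.sub
  have hm : m % 2 = 0 := by omega
  have c1 := compute h hord Ga Gb hsub hm (by omega) (by omega) (by omega) hg hy2 hy3 hgood.1
  have c2 := compute h hord Ga Gb hsub hm (by omega) (by omega) (by omega) hg' hy2 hy3 hgood.2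
  have hyy : TuringReducible (orc (jn g (jn va vb))) (orc y) := by
    show TuringReducible (orc (jn (evn y) (jn (evn (odd' y)) (odd' (odd' y))))) _
    rw [jn_evn_odd, jn_evn_odd]
    exact TuringReducible.refl _
  have hgy : TuringReducible (orc g) (orc y) := (jn_left _ _).trans hyy
  have hwy : TuringReducible (orc (jn va vb)) (orc y) := (jn_right _ _).trans hyy
  have hJ : ∀ {w : ℕ → Bool}, TuringReducible (orc w) (orc y) →
      TuringReducible (orc w) (orc (jn x y)) := fun hw => hw.trans (jn_right _ _)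
  have hsum : TuringReducible (orc x') (orc (jn g (xadd g x'))) := by
    have := xadd_jn_reducible g (xadd g x')
    rwa [show xadd g (xadd g x') = x' from funext fun i => by simp [xadd]] at this
  refine (reducible_h_jn h hord hsum).trans (jn_le (c1.trans (hJ hyy)) (c2.trans (jn_le ?_ (hJ hwy))))
  exact (xadd_jn_reducible _ _).trans (jn_le (hJ hgy) (hx'x.trans (jn_left _ _)))

theorem homeo_trivial (hord : ∀ x y, TuringReducible (orc x) (orc y) ↔
    TuringReducible (orc (h x)) (orc (h y))) (x : ℕ → Bool) :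
    TuringEquivalent (orc (h x)) (orc x) := by
  refine ⟨reducible_self h hord x, ?_⟩
  have h2 := reducible_self h.symm (fun a b => by rw [hord (h.symm a) (h.symm b)]; simp) (h x)
  rwa [Homeomorph.symm_apply_apply] at h2

end Vale.Agent.P327.Homeo
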