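import Vale.Agent.P327.Linear

/-! Joins, cylinders and a category lemma on Cantor space. -/

namespace Vale.Agent.P327.Homeo

open Nat.Partrec

/-- Interleaving. -/
def jn (a b : ℕ → Bool) : ℕ → Bool := fun n => if n % 2 = 0 then a (n / 2) else b (n / 2)

theorem reducible_comp' {x : ℕ → Bool} {p : ℕ → ℕ} (hp : Computable p) :
    TuringReducible (orc fun i => x (p i)) (orc x) :=
  reducible_of_rows (R := fun n => [p n])
    (Computable.list_cons.comp hp (Computable.const [])) fun n => by simp [dot]

theorem jn_left (a b : ℕ → Bool) : TuringReducible (orc a) (orc (jn a b)) := by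
  have h := reducible_comp' (x := jn a b) (p := fun i => 2 * i)
    (Primrec.nat_mul.comp (Primrec.const 2) Primrec.id).to_comp
  have he : (fun i => jn a b (2 * i)) = a := funext fun i => by
    simp [jn]
  rwa [he] at h

theorem jn_right (a b : ℕ → Bool) : TuringReducible (orc b) (orc (jn a b)) := by
  have h := reducible_comp' (x := jn a b) (p := fun i => 2 * i + 1)
    (Primrec.nat_add.comp (Primrec.nat_mul.comp (Primrec.const 2) Primrec.id)
      (Primrec.const 1)).to_comp
  have he : (fun i => jn a b (2 * i + 1)) = b := funext fun i => by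
    simp only [jn]
    rw [if_neg (by omega), show (2 * i + 1) / 2 = i by omega]
  rwa [he] at h

theorem jn_le {a b w : ℕ → Bool} (ha : TuringReducible (orc a) (orc w))
    (hb : TuringReducible (orc b) (orc w)) : TuringReducible (orc (jn a b)) (orc w) := by
  rw [TuringReducible, RecursiveIn.iff_nat] at ha hb ⊢
  have hhalf : Nat.RecursiveIn {orc w} fun n => Part.some (n / 2) :=
    Nat.Primrec.recursiveIn (Primrec.nat_iff.1 (Primrec.nat_div.comp Primrec.id (Primrec.const 2)))
  have hid : Nat.RecursiveIn {orc w} fun n => Part.some n :=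
    Nat.Primrec.recursiveIn Nat.Primrec.id
  have hsel : Primrec fun p : ℕ => if p.unpair.1 % 2 = 0 then p.unpair.2.unpair.1
      else p.unpair.2.unpair.2 :=
    Primrec.ite (Primrec.eq.comp (Primrec.nat_mod.comp (Primrec.fst.comp Primrec.unpair)
        (Primrec.const 2)) (Primrec.const 0))
      (Primrec.fst.comp (Primrec.unpair.comp (Primrec.snd.comp Primrec.unpair)))
      (Primrec.snd.comp (Primrec.unpair.comp (Primrec.snd.comp Primrec.unpair)))
  refine Nat.RecursiveIn.of_eq (Nat.RecursiveIn.comp
    (Nat.Primrec.recursiveIn (Primrec.nat_iff.1 hsel)) (Nat.RecursiveIn.pair hid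
      (Nat.RecursiveIn.pair (Nat.RecursiveIn.comp ha hhalf) (Nat.RecursiveIn.comp hb hhalf))))
    fun n => ?_
  have h1 : (Part.some (n / 2) >>= orc a) = Part.some (if a (n / 2) then 1 else 0) :=
    Part.bind_some _ _
  have h2 : (Part.some (n / 2) >>= orc b) = Part.some (if b (n / 2) then 1 else 0) :=
    Part.bind_some _ _
  simp only [Seq.seq, Part.map_eq_map, Part.map_some, Part.bind_some, h1, h2]
  refine (Part.bind_some _ _).trans ?_
  simp only [Nat.unpair_pair, orc, jn]
  split_ifs <;> simp_all

theorem jn_comp_left {a a' b : ℕ → Bool} (h : TuringReducible (orc a) (orc a')) :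
    TuringReducible (orc (jn a b)) (orc (jn a' b)) :=
  jn_le (h.trans (jn_left _ _)) (jn_right _ _)

/-- Functions found by a search over prefixes are recursive in the oracle. -/
theorem reducible_of_search {z y : ℕ → Bool} (g : List Bool × ℕ → Option Bool) (hg : Computable g)
    (sound : ∀ K n b, g (pre z K, n) = some b → b = y n)
    (tot : ∀ n, ∃ K, (g (pre z K, n)).isSome) : TuringReducible (orc y) (orc z) := by
  rw [TuringReducible, RecursiveIn.iff_nat]
  have hG : Computable fun p : ℕ =>
      ((g (((Encodable.decode p.unpair.1 : Option (List Bool)).getD []), p.unpair.2)).map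
        fun b => if b then 1 else 0).getD 2 := by
    refine Computable.option_getD (Computable.option_map (hg.comp
      (((Primrec.option_getD.comp (Primrec.decode.comp (Primrec.fst.comp Primrec.unpair))
        (Primrec.const [])).to_comp).pair (Primrec.snd.comp Primrec.unpair).to_comp)) ?_)
      (Computable.const 2)
    exact (Primrec.ite (by simpa using Primrec.eq.comp Primrec.snd (Primrec.const true))
      (Primrec.const 1) (Primrec.const 0)).to_comp
  have hGr := Nat.Partrec.recursiveIn (O := {orc z}) (Partrec.nat_iff.1 hG.partrec)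
  have hK : Nat.RecursiveIn {orc z} fun p => Part.some p.unpair.2 :=
    Nat.Primrec.recursiveIn (Primrec.nat_iff.1 (Primrec.snd.comp Primrec.unpair))
  have hn : Nat.RecursiveIn {orc z} fun p => Part.some p.unpair.1 :=
    Nat.Primrec.recursiveIn (Primrec.nat_iff.1 (Primrec.fst.comp Primrec.unpair))
  have hval := Nat.RecursiveIn.comp hGr
    (Nat.RecursiveIn.pair (Nat.RecursiveIn.comp (recursiveIn_pre z) hK) hn)
  let G : ℕ → ℕ → ℕ := fun n K => ((g (pre z K, n)).map fun b => if b then 1 else 0).getD 2
  have hval' : Nat.RecursiveIn {orc z} fun p => Part.some (G p.unpair.1 p.unpair.2) :=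
    Nat.RecursiveIn.of_eq hval fun p => by
      simp only [Seq.seq, Part.map_eq_map, Part.map_some, Part.bind_eq_bind, Part.bind_some]
      refine (Part.bind_some _ _).trans ?_
      simp [G]
  have hfail : Nat.RecursiveIn {orc z} fun v => Part.some (if v = 2 then 1 else 0) :=
    Nat.Primrec.recursiveIn (Primrec.nat_iff.1 (Primrec.ite (Primrec.eq.comp Primrec.id
      (Primrec.const 2)) (Primrec.const 1) (Primrec.const 0)))
  have hid : Nat.RecursiveIn {orc z} fun n => Part.some n :=
    Nat.Primrec.recursiveIn Nat.Primrec.id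
  have hfind := Nat.RecursiveIn.comp hval' (Nat.RecursiveIn.pair hid
    (Nat.RecursiveIn.rfind (Nat.RecursiveIn.comp hfail hval')))
  refine Nat.RecursiveIn.of_eq hfind fun n => ?_
  simp [Seq.seq, Part.map_some, Nat.unpair_pair]
  apply Part.eq_some_iff.2
  have key : ∀ K, G n K ≠ 2 → G n K = if y n then 1 else 0 := by
    intro K h
    cases hgK : g (pre z K, n) with
    | none => simp [G, hgK] at h
    | some b => simp [G, hgK, sound K n b hgK]
  have hne : ∃ K, G n K ≠ 2 := by
    obtain ⟨K₀, hK₀⟩ := tot n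
    obtain ⟨b, hb⟩ := Option.isSome_iff_exists.1 hK₀
    exact ⟨K₀, by cases b <;> simp [G, hb]⟩
  refine Part.mem_bind_iff.2 ⟨Nat.find hne, Nat.mem_rfind.2 ⟨?_, fun {m} hm => ?_⟩, ?_⟩
  · simpa using Nat.find_spec hne
  · simpa using Nat.find_min hne hm
  · simpa [orc] using (key _ (Nat.find_spec hne)).symm

/-- A cylinder. -/
def cyl (t : List Bool) : Set (ℕ → Bool) := {y | ∀ i < t.length, y i = t.getI i}

theorem isOpen_cyl (t : List Bool) : IsOpen (cyl t) := by
  have : cyl t = ⋂ i ∈ Finset.range t.length, (fun y : ℕ → Bool => y i) ⁻¹' {t.getI i} := by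
    ext y; simp [cyl]
  rw [this]
  exact isOpen_biInter_finset fun i _ => (isOpen_discrete _).preimage (continuous_apply i)

theorem mem_cyl_pre {x y : ℕ → Bool} {L : ℕ} :
    y ∈ cyl (pre x L) ↔ ∀ i < L, y i = x i := by
  simp only [cyl, Set.mem_setOf_eq, pre_length]
  exact ⟨fun h i hi => by rw [h i hi, pre_getI hi], fun h i hi => by rw [h i hi, pre_getI hi]⟩

theorem pre_eq_of {x y : ℕ → Bool} {L : ℕ} (h : ∀ i < L, y i = x i) : pre y L = pre x L := by
  refine List.map_congr_left fun i hi => h i (List.mem_range.1 hi)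

theorem exists_cyl {U : Set (ℕ → Bool)} (hU : IsOpen U) {x : ℕ → Bool} (hx : x ∈ U) :
    ∃ L, cyl (pre x L) ⊆ U := by
  obtain ⟨I, u, hu, hsub⟩ := isOpen_pi_iff.1 hU x hx
  refine ⟨I.sup id + 1, fun y hy => hsub fun i hi => ?_⟩
  rw [mem_cyl_pre.1 hy i (Nat.lt_succ_of_le (Finset.le_sup (f := id) hi))]
  exact (hu i hi).2

theorem exists_uniform {f : (ℕ → Bool) → Bool} (hf : Continuous f) :
    ∃ L, ∀ x y : ℕ → Bool, (∀ i < L, x i = y i) → f x = f y := by
  have h : ∀ x, ∃ L, cyl (pre x L) ⊆ f ⁻¹' {f x} := fun x =>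
    exists_cyl ((isOpen_discrete _).preimage hf) rfl
  choose L hL using h
  obtain ⟨s, hs⟩ := isCompact_univ.elim_finite_subcover (fun x => cyl (pre x (L x)))
    (fun x => isOpen_cyl _) fun x _ => Set.mem_iUnion.2 ⟨x, mem_cyl_pre.2 fun _ _ => rfl⟩
  refine ⟨s.sup L, fun x y hxy => ?_⟩
  obtain ⟨c, hc, hxc⟩ := Set.mem_iUnion₂.1 (hs (Set.mem_univ x))
  have hyc : y ∈ cyl (pre c (L c)) := mem_cyl_pre.2 fun i hi => by
    rw [← hxy i (hi.trans_le (Finset.le_sup hc))]; exact mem_cyl_pre.1 hxc i hi
  exact (Set.mem_preimage.1 (hL c hxc)).trans (Set.mem_preimage.1 (hL c hyc)).symm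

/-- If `a` is recursive in `x` joined with each point of a nonmeagre set, it is recursive in `x`. -/
theorem cone_avoid {a x : ℕ → Bool} {U : Set (ℕ → Bool)} (hU : IsOpen U) (hne : U.Nonempty)
    (D : ℕ → Set (ℕ → Bool)) (hDo : ∀ i, IsOpen (D i)) (hDd : ∀ i, Dense (D i))
    (h : ∀ y ∈ U, (∀ i, y ∈ D i) → TuringReducible (orc a) (orc (jn x y))) :
    TuringReducible (orc a) (orc x) := by
  let A : Code → Set (ℕ → Bool) := fun c => {y | (∀ (s t : List Bool) (n v : ℕ), s <+: t →
    v ∈ c.eval (Encodable.encode ((s, n) : List Bool × ℕ)) →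
      v ∈ c.eval (Encodable.encode ((t, n) : List Bool × ℕ))) ∧
    ∀ n v, (v ∈ orc a n ↔ ∃ L, v ∈ c.eval (Encodable.encode ((pre (jn x y) L, n) : List Bool × ℕ)))}
  let K : Option (Code ⊕ ℕ) → Set (ℕ → Bool) := fun o => o.elim Uᶜ
    fun e => e.elim (fun c => closure (A c)) fun i => (D i)ᶜ
  have hKc : ∀ o, IsClosed (K o) := by
    rintro (_ | c | i)
    exacts [hU.isClosed_compl, isClosed_closure, (hDo i).isClosed_compl]
  have hcov : ⋃ o, K o = Set.univ := by
    refine Set.eq_univ_of_forall fun y => Set.mem_iUnion.2 ?_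
    by_cases hy : y ∈ U
    · by_cases hD : ∀ i, y ∈ D i
      · obtain ⟨c, hmono, hc⟩ := use_code (h y hy hD)
        exact ⟨some (Sum.inl c), subset_closure ⟨hmono, hc⟩⟩
      · obtain ⟨i, hi⟩ := not_forall.1 hD
        exact ⟨some (Sum.inr i), hi⟩
    · exact ⟨none, hy⟩
  obtain ⟨y₀, hy₀U, hy₀⟩ := (dense_iUnion_interior_of_closed hKc hcov).inter_open_nonempty U hU hne
  obtain ⟨o, ho⟩ := Set.mem_iUnion.1 hy₀
  obtain _ | c | i := o
  · exact absurd hy₀U (interior_subset ho)
  swap
  · exfalso
    obtain ⟨z, hz, hzD⟩ := (hDd i).inter_open_nonempty _ isOpen_interior ⟨y₀, ho⟩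
    exact interior_subset hz hzD
  obtain ⟨m, hm⟩ := exists_cyl isOpen_interior ho
  set s := pre y₀ m with hs
  have hmeet : ∀ y ∈ cyl s, ∀ M, ∃ y' ∈ A c, ∀ i < M, y' i = y i := by
    intro y hy M
    obtain ⟨y', hy', hyA⟩ := mem_closure_iff.1 (interior_subset (hm hy)) (cyl (pre y M))
      (isOpen_cyl _) (mem_cyl_pre.2 fun _ _ => rfl)
    exact ⟨y', hyA, mem_cyl_pre.1 hy'⟩
  -- the search: guesses for `y` above `s`
  let oracle : List Bool × List Bool → List Bool := fun p =>
    (List.range (2 * min p.1.length (s ++ p.2).length)).map fun i =>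
      if i % 2 = 0 then p.1.getI (i / 2) else (s ++ p.2).getI (i / 2)
  let g : List Bool × ℕ → Option Bool := fun p =>
    ((Encodable.decode p.1.length.unpair.1 : Option (List Bool)).bind fun t =>
      Code.evaln p.1.length.unpair.2 c
        (Encodable.encode ((oracle (p.1, t), p.2) : List Bool × ℕ))).map fun v => decide (v = 1)
  have horc : Primrec oracle := by
    have hlen : Primrec fun p : List Bool × List Bool => (s ++ p.2).length :=
      Primrec.list_length.comp (Primrec.list_append.comp (Primrec.const s) Primrec.snd)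
    refine Primrec.list_map (Primrec.list_range.comp (Primrec.nat_mul.comp (Primrec.const 2)
      (Primrec.nat_min.comp (Primrec.list_length.comp Primrec.fst) hlen))) ?_
    exact (Primrec.ite (Primrec.eq.comp (Primrec.nat_mod.comp Primrec.snd (Primrec.const 2))
        (Primrec.const 0))
      (primrec_getI_bool.comp (Primrec.fst.comp Primrec.fst)
        (Primrec.nat_div.comp Primrec.snd (Primrec.const 2)))
      (primrec_getI_bool.comp (Primrec.list_append.comp (Primrec.const s)
          (Primrec.snd.comp Primrec.fst))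
        (Primrec.nat_div.comp Primrec.snd (Primrec.const 2)))).to₂
  have hgc : Computable g := by
    refine (Primrec.option_map (Primrec.option_bind (Primrec.decode.comp (Primrec.fst.comp
      (Primrec.unpair.comp (Primrec.list_length.comp Primrec.fst)))) ?_) ?_).to_comp
    · exact (Code.primrec_evaln.comp (((Primrec.snd.comp (Primrec.unpair.comp
        (Primrec.list_length.comp (Primrec.fst.comp Primrec.fst)))).pair (Primrec.const c)).pair
        (Primrec.encode.comp ((horc.comp ((Primrec.fst.comp Primrec.fst).pair Primrec.snd)).pair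
          (Primrec.snd.comp Primrec.fst))))).to₂
    · exact (PrimrecPred.decide (Primrec.eq.comp Primrec.snd (Primrec.const 1))).to₂
  obtain ⟨y₁, hy₁, -⟩ := hmeet y₀ (mem_cyl_pre.2 fun _ _ => rfl) 0
  have hmono := hy₁.1
  have horacle : ∀ K t (y : ℕ → Bool), y ∈ cyl (s ++ t) →
      oracle (pre x K, t) = pre (jn x y) (2 * min K (s ++ t).length) := by
    intro K t y hy
    simp only [oracle, pre_length]
    refine List.map_congr_left fun i hi => ?_
    rw [List.mem_range] at hi
    simp only [jn]
    split_ifs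
    · exact pre_getI (by omega)
    · exact (hy _ (by omega)).symm
  refine reducible_of_search g hgc (fun K n b hb => ?_) (fun n => ?_)
  · simp only [g, Option.map_eq_some_iff, Option.bind_eq_some_iff, pre_length] at hb
    obtain ⟨v, ⟨t, -, hv⟩, rfl⟩ := hb
    have hy : (fun i => (s ++ t).getI i) ∈ cyl s := fun i hi => by
      show (s ++ t).getI i = s.getI i
      rw [List.getI_eq_getElem _ (by simp; omega), List.getElem_append_left hi,
        ← List.getI_eq_getElem _ hi]
    obtain ⟨y', hy', hagree⟩ := hmeet _ hy (s ++ t).length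
    rw [horacle K t y' fun i hi => hagree i hi] at hv
    have := (hy'.2 n v).2 ⟨_, Code.evaln_sound hv⟩
    simp only [orc, Part.mem_some_iff] at this
    cases hn : a n <;> simp [this, hn]
  · obtain ⟨y₂, hy₂, hag⟩ := hmeet y₀ (mem_cyl_pre.2 fun _ _ => rfl) m
    obtain ⟨L, hL⟩ := (hy₂.2 n _).1 (Part.mem_some (if a n then 1 else 0))
    obtain ⟨t, ht⟩ : s <+: pre y₂ (max m L) := by
      rw [hs, ← pre_eq_of hag]; exact pre_prefix y₂ (le_max_left _ _)
    have hv := hmono _ (pre (jn x y₂) (2 * max m L)) n _ (pre_prefix _ (by omega)) hL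
    obtain ⟨k, hk⟩ := Code.evaln_complete.1 hv
    refine ⟨Nat.pair (Encodable.encode t) (max k (max m L)), ?_⟩
    have hle := Nat.right_le_pair (Encodable.encode t) (max k (max m L))
    have horc' := horacle (Nat.pair (Encodable.encode t) (max k (max m L))) t y₂
      (by rw [ht]; exact mem_cyl_pre.2 fun _ _ => rfl)
    rw [ht, pre_length, min_eq_right (by omega)] at horc'
    simp only [g, pre_length, Nat.unpair_pair, Encodable.encodek, Option.bind_some,
      Option.isSome_map, horc']
    exact Option.isSome_iff_exists.2 ⟨_, Code.evaln_mono (le_max_left _ _) hk⟩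

end Vale.Agent.P327.Homeo
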