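import Vale.Agent.P327.Homeo.Swap

/-! Computing `h` on a cylinder from generic oracles. -/

namespace Vale.Agent.P327.Homeo

open Nat.Partrec

/-- The matching `0-1, 2-3, ...`. -/
def ra (n : ℕ) : ℕ := if n % 2 = 0 then n + 1 else n - 1

/-- The matching `1-2, 3-4, ...`. -/
def rb (n : ℕ) : ℕ := if n = 0 then 0 else if n % 2 = 1 then n + 1 else n - 1

theorem ra_invol : Function.Involutive ra := fun n => by
  rcases Nat.mod_two_eq_zero_or_one n with hn | hn
  · simp only [ra, hn, if_true, show (n + 1) % 2 ≠ 0 by omega, if_false]; omega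
  · simp only [ra, hn, show ¬ (1 : ℕ) = 0 by omega, show (n - 1) % 2 = 0 by omega, if_true, if_false]; omega

theorem rb_invol : Function.Involutive rb := fun n => by
  rcases Nat.eq_zero_or_pos n with rfl | hn0
  · rfl
  rcases Nat.mod_two_eq_zero_or_one n with hn | hn
  · have h1 : rb n = n - 1 := by unfold rb; rw [if_neg (by omega), if_neg (by omega)]
    rw [h1]; unfold rb; rw [if_neg (by omega), if_pos (by omega)]; omega
  · have h1 : rb n = n + 1 := by unfold rb; rw [if_neg (by omega), if_pos hn]
    rw [h1]; unfold rb; rw [if_neg (by omega), if_neg (by omega)]; omega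

theorem computable_ra : Computable ra :=
  (Primrec.ite (Primrec.eq.comp (Primrec.nat_mod.comp Primrec.id (Primrec.const 2)) (Primrec.const 0))
    Primrec.succ (Primrec.nat_sub.comp Primrec.id (Primrec.const 1))).to_comp

theorem computable_rb : Computable rb :=
  (Primrec.ite (Primrec.eq.comp Primrec.id (Primrec.const 0)) (Primrec.const 0)
    (Primrec.ite (Primrec.eq.comp (Primrec.nat_mod.comp Primrec.id (Primrec.const 2)) (Primrec.const 1))
      Primrec.succ (Primrec.nat_sub.comp Primrec.id (Primrec.const 1)))).to_comp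

/-- Even places. -/
def evn (y : ℕ → Bool) : ℕ → Bool := fun i => y (2 * i)

/-- Odd places. -/
def odd' (y : ℕ → Bool) : ℕ → Bool := fun i => y (2 * i + 1)

theorem evn_jn (a b : ℕ → Bool) : evn (jn a b) = a := funext fun i => by simp [evn, jn]

theorem odd_jn (a b : ℕ → Bool) : odd' (jn a b) = b := funext fun i => by
  simp [odd', jn, show (2 * i + 1) % 2 = 1 by omega, show (2 * i + 1) / 2 = i by omega]

theorem jn_evn_odd (y : ℕ → Bool) : jn (evn y) (odd' y) = y := funext fun i => by
  simp only [jn, evn, odd']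
  rcases Nat.mod_two_eq_zero_or_one i with hi | hi
  · rw [if_pos hi, show 2 * (i / 2) = i by omega]
  · rw [if_neg (by omega), show 2 * (i / 2) + 1 = i by omega]

/-- Interleaving as a homeomorphism. -/
def jnH : ((ℕ → Bool) × (ℕ → Bool)) ≃ₜ (ℕ → Bool) where
  toFun z := jn z.1 z.2
  invFun y := (evn y, odd' y)
  left_inv z := by simp [evn_jn, odd_jn]
  right_inv y := jn_evn_odd y
  continuous_toFun := continuous_jn
  continuous_invFun := (continuous_pi fun _ => continuous_apply _).prodMk
    (continuous_pi fun _ => continuous_apply _)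

theorem evn_open : Continuous evn ∧ IsOpenMap evn :=
  ⟨continuous_fst.comp jnH.symm.continuous, isOpenMap_fst.comp jnH.symm.isOpenMap⟩

theorem odd_open : Continuous odd' ∧ IsOpenMap odd' :=
  ⟨continuous_snd.comp jnH.symm.continuous, isOpenMap_snd.comp jnH.symm.isOpenMap⟩

/-- Even places of a string. -/
def evL (l : List Bool) : List Bool := (List.range (l.length / 2)).map fun i => l.getI (2 * i)

/-- Odd places of a string. -/
def odL (l : List Bool) : List Bool := (List.range (l.length / 2)).map fun i => l.getI (2 * i + 1)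

theorem evL_pref {l : List Bool} {y : ℕ → Bool} (h : Pref l y) :
    Pref (evL l) (evn y) ∧ (evL l).length = l.length / 2 := by
  refine ⟨?_, by simp [evL]⟩
  rw [Pref, pre, evL, List.length_map, List.length_range]
  exact List.map_congr_left fun i hi => (h.getI (by rw [List.mem_range] at hi; omega)).symm

theorem odL_pref {l : List Bool} {y : ℕ → Bool} (h : Pref l y) :
    Pref (odL l) (odd' y) ∧ (odL l).length = l.length / 2 := by
  refine ⟨?_, by simp [odL]⟩
  rw [Pref, pre, odL, List.length_map, List.length_range]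
  exact List.map_congr_left fun i hi => (h.getI (by rw [List.mem_range] at hi; omega)).symm

theorem primrec_evL : Primrec evL :=
  Primrec.list_map (Primrec.list_range.comp (Primrec.nat_div.comp Primrec.list_length (Primrec.const 2)))
    (primrec_getI_bool.comp Primrec.fst
      (Primrec.nat_mul.comp (Primrec.const 2) Primrec.snd)).to₂

theorem primrec_odL : Primrec odL :=
  Primrec.list_map (Primrec.list_range.comp (Primrec.nat_div.comp Primrec.list_length (Primrec.const 2)))
    (primrec_getI_bool.comp Primrec.fst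
      (Primrec.succ.comp (Primrec.nat_mul.comp (Primrec.const 2) Primrec.snd))).to₂

theorem finite_table (L : ℕ) (f : List Bool → Bool) :
    Primrec fun q : List Bool => decide (q.length = L) && f q := by
  induction L generalizing f with
  | zero =>
    refine ((Primrec.dom_bool₂ (fun a b => a && b)).comp (PrimrecPred.decide (Primrec.eq.comp Primrec.list_length
      (Primrec.const 0))) (Primrec.const (f []))).of_eq fun q => ?_
    cases q <;> simp
  | succ L ih =>
    refine ((Primrec.dom_bool₂ (fun a b => a && b)).comp (PrimrecPred.decide (Primrec.eq.comp Primrec.list_length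
      (Primrec.const (L + 1)))) (Primrec.cond Primrec.list_headI ((ih fun q => f (true :: q)).comp Primrec.list_tail)
      ((ih fun q => f (false :: q)).comp Primrec.list_tail))).of_eq fun q => ?_
    rcases q with _ | ⟨b, t⟩
    · simp
    · by_cases ht : t.length = L <;> cases b <;> simp [ht]

variable (h : (ℕ → Bool) ≃ₜ (ℕ → Bool))

/-- One gadget on strings. -/
def stepF (c₁ c₂ : Code) (p : ((List Bool × List Bool) × List Bool) × ℕ) : List Bool :=
  app c₂ ((app c₁ ((p.1.1.1, p.1.1.2), p.2), p.1.2), p.2)

theorem primrec_stepF (c₁ c₂ : Code) : Primrec (stepF c₁ c₂) :=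
  (primrec_app c₂).comp ((((primrec_app c₁).comp
    ((Primrec.fst.comp Primrec.fst).pair Primrec.snd)).pair (Primrec.snd.comp Primrec.fst)).pair
      Primrec.snd)

variable {h} {r : ℕ → ℕ} {A : Set (ℕ → Bool)}

/-- The generic points of a gadget. -/
def Gadget.good (G : Gadget h r A) (hr : Function.Involutive r) (m n : ℕ) :
    Set ((ℕ → Bool) × (ℕ → Bool)) :=
  G.first.good n ∩ pairH h hr m ⁻¹' G.second.good n

theorem Gadget.good_spec (G : Gadget h r A) (hr : Function.Involutive r) (m n : ℕ) :
    IsOpen (G.good hr m n) ∧ Dense (G.good hr m n) :=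
  ⟨(G.first.good_open n).inter ((G.second.good_open n).preimage (pairH h hr m).continuous),
    (G.first.good_dense n).inter_of_isOpen_left
      ((G.second.good_dense n).preimage (pairH h hr m).isOpenMap) (G.first.good_open n)⟩

theorem Gadget.step (G : Gadget h r A) (hr : Function.Involutive r) {m : ℕ}
    (hm : G.wb.length ≤ m) {x v : ℕ → Bool} (hx : x ∈ h ⁻¹' cyl G.wa) (hv : v ∈ h ⁻¹' cyl G.wb) :
    (∀ {q pv pu : List Bool} (K : ℕ), Pref q x → Pref pv v → Pref pu (flipv h m v) →
      Pref (stepF G.first.code G.second.code (((q, pv), pu), K)) (tr h r m x)) ∧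
    ((∀ n, (x, v) ∈ G.good hr m n) → ∀ L, ∃ M, ∀ (q pv pu : List Bool) (K : ℕ), Pref q x →
      Pref pv v → Pref pu (flipv h m v) → M ≤ q.length → M ≤ pv.length → M ≤ pu.length → M ≤ K →
        L ≤ (stepF G.first.code G.second.code (((q, pv), pu), K)).length) := by
  have h1 : (x, v) ∈ (h ⁻¹' cyl G.wa) ×ˢ (h ⁻¹' cyl G.wb) := Set.mk_mem_prod hx hv
  have h2 : (op h r (x, v), flipv h m v) ∈ G.A₁ ×ˢ (h ⁻¹' cyl G.w₁) :=
    Set.mk_mem_prod (G.maps x hx v hv) (G.subB (flipv_mem h hm hv))
  refine ⟨fun K hq hpv hpu => ?_, fun hg L => ?_⟩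
  · have := G.second.app_pref h2 (G.first.app_pref h1 hq hpv K) hpu K
    rwa [op_op h hr] at this
  · obtain ⟨M₂, hM₂⟩ := G.second.app_long h2 (fun n => (hg n).2) L
    obtain ⟨M₁, hM₁⟩ := G.first.app_long h1 (fun n => (hg n).1) M₂
    refine ⟨max M₁ M₂, fun q pv pu K hq hpv hpu hlq hlv hlu hK => ?_⟩
    exact hM₂ _ _ K (G.first.app_pref h1 hq hpv K) hpu
      (hM₁ _ _ K hq hpv (le_trans (le_max_left _ _) hlq) (le_trans (le_max_left _ _) hlv)
        (le_trans (le_max_left _ _) hK)) (le_trans (le_max_right _ _) hlu)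
      (le_trans (le_max_right _ _) hK)

end Vale.Agent.P327.Homeo
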