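import Vale.Agent.P327.Homeo.Basic

/-! One functional on a box, and its truncated evaluation on finite strings. -/

namespace Vale.Agent.P327.Homeo

open Nat.Partrec

theorem continuous_jn : Continuous fun z : (ℕ → Bool) × (ℕ → Bool) => jn z.1 z.2 := by
  refine continuous_pi fun n => ?_
  simp only [jn]
  split_ifs
  · exact (continuous_apply _).comp continuous_fst
  · exact (continuous_apply _).comp continuous_snd

/-- Monotone codes. -/
def Mono (c : Code) : Prop := ∀ (s t : List Bool) (n v : ℕ), s <+: t →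
  v ∈ c.eval (Encodable.encode ((s, n) : List Bool × ℕ)) →
    v ∈ c.eval (Encodable.encode ((t, n) : List Bool × ℕ))

/-- The pairs at which a code converges on argument `n`. -/
def conv (c : Code) (n : ℕ) : Set ((ℕ → Bool) × (ℕ → Bool)) :=
  {z | ∃ L v, v ∈ c.eval (Encodable.encode ((pre (jn z.1 z.2) L, n) : List Bool × ℕ))}

theorem isOpen_conv (c : Code) (n : ℕ) : IsOpen (conv c n) := by
  refine isOpen_iff_forall_mem_open.2 fun z ⟨L, v, hv⟩ =>
    ⟨(fun z : (ℕ → Bool) × (ℕ → Bool) => jn z.1 z.2) ⁻¹' cyl (pre (jn z.1 z.2) L), ?_,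
      (isOpen_cyl _).preimage continuous_jn, mem_cyl_pre.2 fun _ _ => rfl⟩
  intro z' hz'
  exact ⟨L, v, by rw [pre_eq_of (mem_cyl_pre.1 hz')]; exact hv⟩

/-- A code that is sound on a box and converges densely in it. -/
structure Piece (T : (ℕ → Bool) × (ℕ → Bool) → ℕ → Bool) (A B : Set (ℕ → Bool)) where
  code : Code
  mono : Mono code
  sound : ∀ z ∈ A ×ˢ B, ∀ L n v,
    v ∈ code.eval (Encodable.encode ((pre (jn z.1 z.2) L, n) : List Bool × ℕ)) →
      v = if T z n then 1 else 0
  good : ℕ → Set ((ℕ → Bool) × (ℕ → Bool))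
  good_open : ∀ n, IsOpen (good n)
  good_dense : ∀ n, Dense (good n)
  good_conv : ∀ n, ∀ z ∈ A ×ˢ B, z ∈ good n → z ∈ conv code n

theorem exists_piece (h : (ℕ → Bool) ≃ₜ (ℕ → Bool)) (T : (ℕ → Bool) × (ℕ → Bool) → ℕ → Bool)
    (hT : Continuous T) (hred : ∀ z, TuringReducible (orc (T z)) (orc (jn z.1 z.2)))
    (U : Set ((ℕ → Bool) × (ℕ → Bool))) (hU : IsOpen U) (hne : U.Nonempty) :
    ∃ wa wb : List Bool, (h ⁻¹' cyl wa).Nonempty ∧ (h ⁻¹' cyl wb).Nonempty ∧
      (h ⁻¹' cyl wa) ×ˢ (h ⁻¹' cyl wb) ⊆ U ∧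
      Nonempty (Piece T (h ⁻¹' cyl wa) (h ⁻¹' cyl wb)) := by
  let A : Code → Set ((ℕ → Bool) × (ℕ → Bool)) := fun c => {z | Mono c ∧ ∀ n v, (v ∈ orc (T z) n ↔
    ∃ L, v ∈ c.eval (Encodable.encode ((pre (jn z.1 z.2) L, n) : List Bool × ℕ)))}
  let K : Option Code → Set ((ℕ → Bool) × (ℕ → Bool)) := fun o => o.elim Uᶜ fun c => closure (A c)
  have hKc : ∀ o, IsClosed (K o) := by
    rintro (_ | c)
    exacts [hU.isClosed_compl, isClosed_closure]
  have hcov : ⋃ o, K o = Set.univ := by
    refine Set.eq_univ_of_forall fun z => Set.mem_iUnion.2 ?_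
    by_cases hz : z ∈ U
    · obtain ⟨c, hmono, hc⟩ := use_code (hred z)
      exact ⟨some c, subset_closure ⟨hmono, hc⟩⟩
    · exact ⟨none, hz⟩
  obtain ⟨z₀, hz₀U, hz₀⟩ := (dense_iUnion_interior_of_closed hKc hcov).inter_open_nonempty U hU hne
  obtain ⟨o, ho⟩ := Set.mem_iUnion.1 hz₀
  obtain _ | c := o
  · exact absurd hz₀U (interior_subset ho)
  have hO : IsOpen (interior (K (some c)) ∩ U) := isOpen_interior.inter hU
  obtain ⟨P, Q, hP, hQ, hxP, hyQ, hPQ⟩ := isOpen_prod_iff.1 hO z₀.1 z₀.2 ⟨ho, hz₀U⟩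
  obtain ⟨La, hLa⟩ := exists_cyl (hP.preimage h.symm.continuous)
    (show h z₀.1 ∈ h.symm ⁻¹' P by simpa using hxP)
  obtain ⟨Lb, hLb⟩ := exists_cyl (hQ.preimage h.symm.continuous)
    (show h z₀.2 ∈ h.symm ⁻¹' Q by simpa using hyQ)
  have hbox : (h ⁻¹' cyl (pre (h z₀.1) La)) ×ˢ (h ⁻¹' cyl (pre (h z₀.2) Lb)) ⊆
      interior (K (some c)) ∩ U := fun z hz => hPQ
    ⟨by simpa using hLa hz.1, by simpa using hLb hz.2⟩
  have hmeet : ∀ z ∈ (h ⁻¹' cyl (pre (h z₀.1) La)) ×ˢ (h ⁻¹' cyl (pre (h z₀.2) Lb)),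
      z ∈ closure (A c) := fun z hz =>
    interior_subset (s := closure (A c)) (hbox hz).1
  have hmono : Mono c := by
    obtain ⟨z, hz⟩ : (A c).Nonempty := closure_nonempty_iff.1 ⟨z₀, interior_subset (s := closure (A c)) ho⟩
    exact hz.1
  refine ⟨_, _, ⟨z₀.1, mem_cyl_pre.2 fun _ _ => rfl⟩, ⟨z₀.2, mem_cyl_pre.2 fun _ _ => rfl⟩,
    hbox.trans Set.inter_subset_right, ⟨⟨c, hmono, fun z hz L n v hv => ?_,
    fun n => conv c n ∪ (closure (interior (K (some c))))ᶜ,
    fun n => (isOpen_conv c n).union isClosed_closure.isOpen_compl, fun n => ?_,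
    fun n z hz hg => hg.resolve_right fun h' => h' (subset_closure (hbox hz).1)⟩⟩⟩
  · have hN : IsOpen (((fun z : (ℕ → Bool) × (ℕ → Bool) => jn z.1 z.2) ⁻¹' cyl (pre (jn z.1 z.2) L)) ∩
        ((fun z => T z n) ⁻¹' {T z n})) :=
      ((isOpen_cyl _).preimage continuous_jn).inter
        ((isOpen_discrete _).preimage ((continuous_apply n).comp hT))
    obtain ⟨z', ⟨hz'1, hz'2⟩, hz'A⟩ :=
      mem_closure_iff.1 (hmeet z hz) _ hN ⟨mem_cyl_pre.2 fun _ _ => rfl, rfl⟩
    have hv' := (hz'A.2 n v).2 ⟨L, by rw [pre_eq_of (mem_cyl_pre.1 hz'1)]; exact hv⟩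
    simp only [orc, Part.mem_some_iff] at hv'
    rw [Set.mem_preimage, Set.mem_singleton_iff] at hz'2
    rw [hv', hz'2]
  · rw [dense_iff_inter_open]
    intro W hW hWne
    by_cases hWK : (W ∩ interior (K (some c))).Nonempty
    · obtain ⟨z, hz⟩ := hWK
      obtain ⟨z', hz'W, hz'A⟩ := mem_closure_iff.1
        (interior_subset (s := closure (A c)) hz.2) W hW hz.1
      obtain ⟨L, hL⟩ := (hz'A.2 n _).1 (Part.mem_some (if T z' n then 1 else 0))
      exact ⟨z', hz'W, Or.inl ⟨L, _, hL⟩⟩
    · obtain ⟨z, hz⟩ := hWne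
      refine ⟨z, hz, Or.inr fun hcl => hWK ?_⟩
      exact mem_closure_iff.1 hcl W hW hz

/-- Interleaving of finite strings. -/
def il (p : List Bool × List Bool) : List Bool :=
  (List.range (2 * min p.1.length p.2.length)).map fun i =>
    if i % 2 = 0 then p.1.getI (i / 2) else p.2.getI (i / 2)

/-- `a` is a prefix of `x`. -/
def Pref (a : List Bool) (x : ℕ → Bool) : Prop := pre x a.length = a

theorem Pref.getI {a : List Bool} {x : ℕ → Bool} (h : Pref a x) {i : ℕ} (hi : i < a.length) :
    a.getI i = x i := by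
  conv_lhs => rw [← h]
  exact pre_getI hi

theorem pref_pre (x : ℕ → Bool) (L : ℕ) : Pref (pre x L) x := by rw [Pref, pre_length]

theorem il_eq {a b : List Bool} {x y : ℕ → Bool} (ha : Pref a x) (hb : Pref b y) :
    il (a, b) = pre (jn x y) (2 * min a.length b.length) := by
  refine List.map_congr_left fun i hi => ?_
  rw [List.mem_range] at hi
  dsimp only at hi ⊢
  simp only [jn]
  split_ifs
  · exact ha.getI (by omega)
  · exact hb.getI (by omega)

/-- The first defined entry of a list. -/
def firstSome (l : List (Option ℕ)) : Option ℕ :=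
  l.foldr (fun o acc => if o.isSome then o else acc) none

theorem mem_of_firstSome {l : List (Option ℕ)} {v : ℕ} (h : firstSome l = some v) : some v ∈ l := by
  induction l with
  | nil => simp [firstSome] at h
  | cons o l ih =>
    cases o with
    | none => exact List.mem_cons_of_mem _ (ih h)
    | some w =>
      have : w = v := by simpa [firstSome] using h
      exact this ▸ List.mem_cons_self

theorem isSome_firstSome {l : List (Option ℕ)} {v : ℕ} (h : some v ∈ l) : (firstSome l).isSome := by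
  induction l with
  | nil => simp at h
  | cons o l ih =>
    cases o with
    | none => exact ih (by simpa using h)
    | some w => simp [firstSome]

/-- Bounded evaluation along all shorter prefixes. -/
def ev1 (c : Code) (p : ((List Bool × List Bool) × ℕ) × ℕ) : Option ℕ :=
  firstSome ((List.range (p.1.2 + 1)).map fun j =>
    Code.evaln p.1.2 c (Encodable.encode (((il p.1.1).take j, p.2) : List Bool × ℕ)))

/-- The functional of a code on finite strings, with fuel `K`. -/
def app (c : Code) (p : (List Bool × List Bool) × ℕ) : List Bool :=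
  (((List.range p.2).map fun n => ev1 c (p, n)).takeWhile
      fun o => o.isSome).map fun o => decide (o = some 1)

theorem primrec_il : Primrec il := by
  refine Primrec.list_map (Primrec.list_range.comp (Primrec.nat_mul.comp (Primrec.const 2)
    (Primrec.nat_min.comp (Primrec.list_length.comp Primrec.fst)
      (Primrec.list_length.comp Primrec.snd)))) ?_
  exact (Primrec.ite (Primrec.eq.comp (Primrec.nat_mod.comp Primrec.snd (Primrec.const 2))
      (Primrec.const 0))
    (primrec_getI_bool.comp (Primrec.fst.comp Primrec.fst)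
      (Primrec.nat_div.comp Primrec.snd (Primrec.const 2)))
    (primrec_getI_bool.comp (Primrec.snd.comp Primrec.fst)
      (Primrec.nat_div.comp Primrec.snd (Primrec.const 2)))).to₂

theorem primrec_ev1 (c : Code) : Primrec (ev1 c) := by
  have hfs : Primrec firstSome :=
    Primrec.list_foldr Primrec.id (Primrec.const none)
      (Primrec.ite (Primrec.eq.comp
          (Primrec.option_isSome.comp (Primrec.fst.comp Primrec.snd)) (Primrec.const true))
        (Primrec.fst.comp Primrec.snd) (Primrec.snd.comp Primrec.snd)).to₂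
  refine hfs.comp (Primrec.list_map (Primrec.list_range.comp
    (Primrec.succ.comp (Primrec.snd.comp Primrec.fst))) ?_)
  exact (Code.primrec_evaln.comp (((Primrec.snd.comp (Primrec.fst.comp Primrec.fst)).pair
    (Primrec.const c)).pair (Primrec.encode.comp ((Primrec.list_take.comp Primrec.snd
      (primrec_il.comp (Primrec.fst.comp (Primrec.fst.comp Primrec.fst)))).pair
        (Primrec.snd.comp Primrec.fst))))).to₂

theorem primrec_app (c : Code) : Primrec (app c) :=
  Primrec.list_map ((Primrec.list_takeWhile Primrec.option_isSome).comp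
    (Primrec.list_map (Primrec.list_range.comp Primrec.snd)
      ((primrec_ev1 c).comp (Primrec.fst.pair Primrec.snd)).to₂))
    (PrimrecPred.decide (Primrec.eq.comp Primrec.snd (Primrec.const (some 1)))).to₂

theorem takeWhile_range_length {α : Type} {f : ℕ → Option α} {K L : ℕ} (hLK : L ≤ K)
    (h : ∀ n < L, (f n).isSome) :
    L ≤ (((List.range K).map f).takeWhile fun o => o.isSome).length := by
  induction L generalizing K f with
  | zero => simp
  | succ L ih =>
    obtain ⟨K, rfl⟩ := Nat.exists_eq_add_of_le' (show 1 ≤ K by omega)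
    rw [List.range_succ_eq_map, List.map_cons, List.takeWhile_cons_of_pos (h 0 (by omega)),
      List.map_map, List.length_cons]
    exact Nat.succ_le_succ (ih (f := f ∘ Nat.succ) (K := K) (by omega) fun n hn =>
      h (n + 1) (by omega))

variable {T : (ℕ → Bool) × (ℕ → Bool) → ℕ → Bool} {A B : Set (ℕ → Bool)}

theorem take_pre (x : ℕ → Bool) (M j : ℕ) : (pre x M).take j = pre x (min j M) := by
  simp [pre, ← List.map_take, List.take_range]

theorem Piece.app_pref (P : Piece T A B) {a b : List Bool} {z : (ℕ → Bool) × (ℕ → Bool)}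
    (hz : z ∈ A ×ˢ B) (ha : Pref a z.1) (hb : Pref b z.2) (K : ℕ) :
    Pref (app P.code ((a, b), K)) (T z) := by
  refine List.ext_getElem (by simp [pre]) fun i hi hi' => ?_
  simp only [app, List.length_map] at hi'
  simp only [app, pre, List.getElem_map, List.getElem_range]
  have hsome := List.mem_takeWhile_imp (List.getElem_mem hi')
  obtain ⟨v, hv⟩ := Option.isSome_iff_exists.1 hsome
  rw [hv]
  have := (List.takeWhile_prefix (p := fun o : Option ℕ => o.isSome)
    (l := (List.range K).map fun n => ev1 P.code (((a, b), K), n))).getElem hi'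
  rw [hv] at this
  simp only [List.getElem_map, List.getElem_range] at this
  obtain ⟨j, -, hj⟩ := List.mem_map.1 (mem_of_firstSome this.symm)
  simp only [il_eq ha hb, take_pre] at hj
  have hval := P.sound z hz _ i v (Code.evaln_sound hj)
  cases hT : T z i <;> simp [hval, hT]

theorem Piece.app_long (P : Piece T A B) {z : (ℕ → Bool) × (ℕ → Bool)}
    (hz : z ∈ A ×ˢ B) (hg : ∀ n, z ∈ P.good n) (L : ℕ) :
    ∃ M, ∀ a b K, Pref a z.1 → Pref b z.2 → M ≤ a.length → M ≤ b.length → M ≤ K →
      L ≤ (app P.code ((a, b), K)).length := by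
  have h : ∀ n, ∃ M, ∀ a b K, Pref a z.1 → Pref b z.2 → M ≤ a.length → M ≤ b.length → M ≤ K →
      (ev1 P.code (((a, b), K), n)).isSome := by
    intro n
    obtain ⟨L₀, v, hv⟩ := P.good_conv n z hz (hg n)
    obtain ⟨k, hk⟩ := Code.evaln_complete.1 hv
    refine ⟨max L₀ k, fun a b K ha hb hLa hLb hK => ?_⟩
    refine isSome_firstSome (v := v) (List.mem_map.2 ⟨L₀, List.mem_range.2 (by dsimp only; omega), ?_⟩)
    simp only [il_eq ha hb, take_pre]
    rw [min_eq_left (by omega)]
    exact Code.evaln_mono (by omega) hk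
  choose M hM using h
  refine ⟨max L ((Finset.range L).sup M), fun a b K ha hb hLa hLb hK => ?_⟩
  simp only [app, List.length_map]
  refine takeWhile_range_length (by omega) fun n hn => ?_
  have := Finset.le_sup (f := M) (Finset.mem_range.2 hn)
  exact hM n a b K ha hb (by omega) (by omega) (by omega)

end Vale.Agent.P327.Homeo
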