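import Vale.Agent.P327.Homeo.Piece

/-! Conjugated pair swaps. -/

namespace Vale.Agent.P327.Homeo

/-- The tail indicator. -/
def tail (m : ℕ) : ℕ → Bool := fun i => decide (m ≤ i)

/-- Swap the pairs of the matching `r` selected by `b`. -/
def swap (r : ℕ → ℕ) (a b : ℕ → Bool) : ℕ → Bool := fun i =>
  bif b (min i (r i)) then a (r i) else a i

theorem swap_swap {r : ℕ → ℕ} (hr : Function.Involutive r) (a b b' : ℕ → Bool) :
    swap r (swap r a b) b' = swap r a (xadd b b') := by
  funext i
  simp only [swap, xadd, hr i, min_comm (r i) i]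
  cases b (min i (r i)) <;> cases b' (min i (r i)) <;> simp

theorem swap_zseq (r : ℕ → ℕ) (a : ℕ → Bool) : swap r a zseq = a := funext fun i => by
  simp [swap, zseq]

theorem xadd_same (x : ℕ → Bool) : xadd x x = zseq := funext fun i => by simp [xadd, zseq]

theorem xadd_xadd (x c : ℕ → Bool) : xadd (xadd x c) c = x := funext fun i => by simp [xadd]

theorem swap_invol {r : ℕ → ℕ} (hr : Function.Involutive r) (a b : ℕ → Bool) :
    swap r (swap r a b) b = a := by rw [swap_swap hr, xadd_same, swap_zseq]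

theorem swap_reducible {r : ℕ → ℕ} (hr : Computable r) (a b : ℕ → Bool) :
    TuringReducible (orc (swap r a b)) (orc (jn a b)) := by
  refine reducible_of_prefix (fun i => 2 * i + 2 * r i + 2)
    (fun p => bif p.1.getI (2 * min p.2 (r p.2) + 1) then p.1.getI (2 * r p.2) else p.1.getI (2 * p.2))
    ?_ ?_ fun i => ?_
  · exact Primrec.nat_add.to_comp.comp (Primrec.nat_add.to_comp.comp
      (Primrec.nat_mul.to_comp.comp (Computable.const 2) Computable.id)
      (Primrec.nat_mul.to_comp.comp (Computable.const 2) hr)) (Computable.const 2)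
  · refine Computable.cond (primrec_getI_bool.to_comp.comp Computable.fst
      (Computable.succ.comp (Primrec.nat_mul.to_comp.comp (Computable.const 2)
        (Primrec.nat_min.to_comp.comp Computable.snd (hr.comp Computable.snd)))))
      (primrec_getI_bool.to_comp.comp Computable.fst
        (Primrec.nat_mul.to_comp.comp (Computable.const 2) (hr.comp Computable.snd)))
      (primrec_getI_bool.to_comp.comp Computable.fst
        (Primrec.nat_mul.to_comp.comp (Computable.const 2) Computable.snd))
  · dsimp only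
    rw [pre_getI (by omega), pre_getI (by omega), pre_getI (by omega)]
    simp [swap, jn, show (2 * min i (r i) + 1) % 2 = 1 by omega,
      show (2 * min i (r i) + 1) / 2 = min i (r i) by omega]

theorem continuous_swap (r : ℕ → ℕ) :
    Continuous fun z : (ℕ → Bool) × (ℕ → Bool) => swap r z.1 z.2 := by
  refine continuous_pi fun i => ?_
  exact Continuous.comp
    (g := fun t : Bool × Bool × Bool => bif t.1 then t.2.1 else t.2.2)
    (f := fun z : (ℕ → Bool) × (ℕ → Bool) => (z.2 (min i (r i)), z.1 (r i), z.1 i))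
    continuous_of_discreteTopology
    (((continuous_apply (min i (r i))).comp continuous_snd).prodMk
      (((continuous_apply (r i)).comp continuous_fst).prodMk
        ((continuous_apply i).comp continuous_fst)))

theorem continuous_xadd : Continuous fun z : (ℕ → Bool) × (ℕ → Bool) => xadd z.1 z.2 := by
  refine continuous_pi fun i => ?_
  exact Continuous.comp (g := fun t : Bool × Bool => xor t.1 t.2)
    (f := fun z : (ℕ → Bool) × (ℕ → Bool) => (z.1 i, z.2 i)) continuous_of_discreteTopology
    (((continuous_apply i).comp continuous_fst).prodMk ((continuous_apply i).comp continuous_snd))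

variable (h : (ℕ → Bool) ≃ₜ (ℕ → Bool))

/-- The swap action conjugated by `h`. -/
def op (r : ℕ → ℕ) (z : (ℕ → Bool) × (ℕ → Bool)) : ℕ → Bool := h.symm (swap r (h z.1) (h z.2))

theorem continuous_op (r : ℕ → ℕ) : Continuous (op h r) :=
  h.symm.continuous.comp ((continuous_swap r).comp
    ((h.continuous.comp continuous_fst).prodMk (h.continuous.comp continuous_snd)))

theorem op_invol {r : ℕ → ℕ} (hr : Function.Involutive r) (x v : ℕ → Bool) :
    op h r (op h r (x, v), v) = x := by
  simp [op, swap_invol hr]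

/-- The tail translation conjugated by `h`. -/
def flipv (m : ℕ) (v : ℕ → Bool) : ℕ → Bool := h.symm (xadd (h v) (tail m))

theorem flipv_flipv (m : ℕ) (v : ℕ → Bool) : flipv h m (flipv h m v) = v := by
  simp [flipv, xadd_xadd]

theorem continuous_flipv (m : ℕ) : Continuous (flipv h m) :=
  h.symm.continuous.comp (continuous_xadd.comp (h.continuous.prodMk continuous_const))

/-- The tail swap conjugated by `h`. -/
def tr (r : ℕ → ℕ) (m : ℕ) (x : ℕ → Bool) : ℕ → Bool := h.symm (swap r (h x) (tail m))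

theorem op_op {r : ℕ → ℕ} (hr : Function.Involutive r) (m : ℕ) (x v : ℕ → Bool) :
    op h r (op h r (x, v), flipv h m v) = tr h r m x := by
  simp only [op, flipv, tr, Homeomorph.apply_symm_apply, swap_swap hr]
  rw [show xadd (h v) (xadd (h v) (tail m)) = tail m from funext fun i => by simp [xadd]]

/-- The tail swap as a homeomorphism. -/
def trH {r : ℕ → ℕ} (hr : Function.Involutive r) (m : ℕ) : (ℕ → Bool) ≃ₜ (ℕ → Bool) where
  toFun := tr h r m
  invFun := tr h r m
  left_inv x := by simp [tr, swap_invol hr]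
  right_inv x := by simp [tr, swap_invol hr]
  continuous_toFun := h.symm.continuous.comp
    ((continuous_swap r).comp (h.continuous.prodMk (continuous_const (y := tail m))))
  continuous_invFun := h.symm.continuous.comp
    ((continuous_swap r).comp (h.continuous.prodMk (continuous_const (y := tail m))))

/-- The map between the domains of the two halves of a gadget. -/
def pairH {r : ℕ → ℕ} (hr : Function.Involutive r) (m : ℕ) :
    ((ℕ → Bool) × (ℕ → Bool)) ≃ₜ ((ℕ → Bool) × (ℕ → Bool)) where
  toFun z := (op h r z, flipv h m z.2)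
  invFun z := (op h r (z.1, flipv h m z.2), flipv h m z.2)
  left_inv z := by simp [flipv_flipv, op_invol h hr]
  right_inv z := by simp [flipv_flipv, op_invol h hr]
  continuous_toFun := (continuous_op h r).prodMk ((continuous_flipv h m).comp continuous_snd)
  continuous_invFun := ((continuous_op h r).comp (continuous_fst.prodMk
    ((continuous_flipv h m).comp continuous_snd))).prodMk
      ((continuous_flipv h m).comp continuous_snd)

variable (hord : ∀ x y, TuringReducible (orc x) (orc y) ↔ TuringReducible (orc (h x)) (orc (h y)))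

include hord in
theorem reducible_h_jn {x a b : ℕ → Bool} (hx : TuringReducible (orc x) (orc (jn a b))) :
    TuringReducible (orc (h x)) (orc (jn (h a) (h b))) := by
  set w := h.symm (jn (h a) (h b)) with hw
  have ha : TuringReducible (orc a) (orc w) := by
    rw [hord, hw, Homeomorph.apply_symm_apply]; exact jn_left _ _
  have hb : TuringReducible (orc b) (orc w) := by
    rw [hord, hw, Homeomorph.apply_symm_apply]; exact jn_right _ _
  have := (hord x w).1 (hx.trans (jn_le ha hb))
  rwa [hw, Homeomorph.apply_symm_apply] at this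

include hord in
theorem op_reducible {r : ℕ → ℕ} (hr : Computable r) (z : (ℕ → Bool) × (ℕ → Bool)) :
    TuringReducible (orc (op h r z)) (orc (jn z.1 z.2)) := by
  rw [hord, op, Homeomorph.apply_symm_apply]
  exact (swap_reducible hr _ _).trans
    (jn_le ((hord _ _).1 (jn_left _ _)) ((hord _ _).1 (jn_right _ _)))

include hord in
theorem flipv_reducible (m : ℕ) (v : ℕ → Bool) :
    TuringReducible (orc (flipv h m v)) (orc v) := by
  rw [hord, flipv, Homeomorph.apply_symm_apply]
  refine reducible_of_prefix (fun i => i + 1) (fun p => xor (p.1.getI p.2) (decide (m ≤ p.2)))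
    Computable.succ ?_ fun i => ?_
  · exact ((Primrec.dom_bool₂ xor).comp (primrec_getI_bool.comp Primrec.fst Primrec.snd)
      (PrimrecPred.decide (Primrec.nat_le.comp (Primrec.const m) Primrec.snd))).to_comp
  · rw [pre_getI (Nat.lt_succ_self i)]
    rfl

/-- Two functionals computing a tail swap on a box. -/
structure Gadget (r : ℕ → ℕ) (A : Set (ℕ → Bool)) where
  wa : List Bool
  wb : List Bool
  A₁ : Set (ℕ → Bool)
  w₁ : List Bool
  neA : (h ⁻¹' cyl wa).Nonempty
  neB : (h ⁻¹' cyl wb).Nonempty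
  first : Piece (op h r) (h ⁻¹' cyl wa) (h ⁻¹' cyl wb)
  second : Piece (op h r) A₁ (h ⁻¹' cyl w₁)
  sub : h ⁻¹' cyl wa ⊆ A
  maps : ∀ x ∈ h ⁻¹' cyl wa, ∀ v ∈ h ⁻¹' cyl wb, op h r (x, v) ∈ A₁
  subB : h ⁻¹' cyl wb ⊆ h ⁻¹' cyl w₁

include hord in
theorem exists_gadget {r : ℕ → ℕ} (hr : Function.Involutive r) (hrc : Computable r)
    {A : Set (ℕ → Bool)} (hA : IsOpen A) (hne : A.Nonempty) : Nonempty (Gadget h r A) := by
  obtain ⟨x, hx⟩ := hne
  have hop := continuous_op h r
  obtain ⟨wa₁, wb₁, ⟨a₀, ha₀⟩, ⟨b₀, hb₀⟩, hsub₁, ⟨P₁⟩⟩ := exists_piece h (op h r) hop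
    (op_reducible h hord hrc) (op h r ⁻¹' A) (hA.preimage hop)
    ⟨(op h r (x, x), x), show op h r (op h r (x, x), x) ∈ A by rwa [op_invol h hr]⟩
  have hU : IsOpen ({z : (ℕ → Bool) × (ℕ → Bool) | z.1 ∈ A} ∩
      ({z | op h r z ∈ h ⁻¹' cyl wa₁} ∩ {z | z.2 ∈ h ⁻¹' cyl wb₁})) :=
    (hA.preimage continuous_fst).inter ((((isOpen_cyl _).preimage h.continuous).preimage hop).inter
      (((isOpen_cyl _).preimage h.continuous).preimage continuous_snd))
  obtain ⟨wa₂, wb₂, hna, hnb, hsub₂, ⟨P₂⟩⟩ := exists_piece h (op h r) hop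
    (op_reducible h hord hrc) _ hU ⟨(op h r (a₀, b₀), b₀), hsub₁ (Set.mk_mem_prod ha₀ hb₀),
      by show op h r (op h r (a₀, b₀), b₀) ∈ h ⁻¹' cyl wa₁; rwa [op_invol h hr], hb₀⟩
  obtain ⟨a₂, ha₂⟩ := hna
  obtain ⟨b₂, hb₂⟩ := hnb
  exact ⟨⟨wa₂, wb₂, h ⁻¹' cyl wa₁, wb₁, ⟨a₂, ha₂⟩, ⟨b₂, hb₂⟩, P₂, P₁,
    fun a ha => (hsub₂ (Set.mk_mem_prod ha hb₂)).1,
    fun a ha b hb => (hsub₂ (Set.mk_mem_prod ha hb)).2.1,
    fun b hb => (hsub₂ (Set.mk_mem_prod ha₂ hb)).2.2⟩⟩

theorem cyl_congr {t : List Bool} {y y' : ℕ → Bool} (hy : y ∈ cyl t)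
    (he : ∀ i < t.length, y' i = y i) : y' ∈ cyl t := fun i hi => (he i hi).trans (hy i hi)

theorem flipv_mem {t : List Bool} {m : ℕ} (hm : t.length ≤ m) {v : ℕ → Bool}
    (hv : v ∈ h ⁻¹' cyl t) : flipv h m v ∈ h ⁻¹' cyl t := by
  rw [Set.mem_preimage, flipv, Homeomorph.apply_symm_apply]
  exact cyl_congr hv fun i hi => by simp [xadd, tail, show ¬ m ≤ i by omega]

theorem tr_mem {t : List Bool} {r : ℕ → ℕ} {m : ℕ} (hm : t.length ≤ m) {x : ℕ → Bool}
    (hx : x ∈ h ⁻¹' cyl t) : tr h r m x ∈ h ⁻¹' cyl t := by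
  rw [Set.mem_preimage, tr, Homeomorph.apply_symm_apply]
  exact cyl_congr hx fun i hi => by simp [swap, tail, show ¬ m ≤ i by omega]

end Vale.Agent.P327.Homeo
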